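import Vale.Agent.P155.SW801.Defs
import Vale.Agent.P155.NT730Y.Mk3

/-!
# P155 (SW), block (6a): conditional laws given the touched part, abstract lemmas
-/

namespace Vale.Agent.P155.SW924

open MeasureTheory ProbabilityTheory Set TopologicalSpace Filter Topology Uq NT730Y

section

variable {S : Type*} [MeasurableSpace S] {Q : Measure S}

/-- vanishing against continuous functions of finitely many coordinates -/
theorem zero_of_fdd [IsFiniteMeasure Q] {Y : S → ℕ → ℝ} (hY : Measurable Y) {D : S → ℂ}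
    (hD : Measurable D) {C : ℝ} (hC : ∀ s, ‖D s‖ ≤ C)
    (h : ∀ (N : ℕ) (F : (Fin N → ℝ) → ℝ), Continuous F → (∃ C, ∀ y, |F y| ≤ C) →
      ∫ s, (F (fun i => Y s i) : ℂ) * D s ∂Q = 0)
    {B : Set (ℕ → ℝ)} (hB : MeasurableSet B) : ∫ s in Y ⁻¹' B, D s ∂Q = 0 := by
  have hC0 : 0 ≤ |C| := abs_nonneg C
  have hc : (0 : ℝ) < |C| + 1 := by linarith
  have key : ∫ s, ((B.indicator (fun _ => (1 : ℝ)) (Y s) : ℝ) : ℂ) * (D s / ((|C| + 1 : ℝ) : ℂ)) ∂Q =
      ∫ s, ((B.indicator (fun _ => (1 : ℝ)) (Y s) : ℝ) : ℂ) * (0 : ℂ) ∂Q := by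
    refine U613.integral_ext_complex (ι := ℕ) (f := fun i (y : ℕ → ℝ) => y i)
      (fun i => measurable_pi_apply i) (fun x y hxy => funext hxy) hY (hD.div_const _)
      measurable_const ?_ (fun x => by simp) ?_ (measurable_const.indicator hB) ⟨1, fun y => ?_⟩
    · intro x
      rw [norm_div, Complex.norm_real, Real.norm_of_nonneg hc.le, div_le_one hc]
      exact (hC x).trans ((le_abs_self C).trans (by linarith))
    · intro J F hF hFb
      have hlt : ∀ j : J, (j : ℕ) < J.sup (fun i => i) + 1 := by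
        intro j
        have : (j : ℕ) ≤ J.sup (fun i => i) := Finset.le_sup (f := fun i : ℕ => i) j.2
        omega
      obtain ⟨M, hM⟩ := hFb
      have h1 := h (J.sup (fun i => i) + 1) (fun y => F (fun j : J => y ⟨j, hlt j⟩))
        (hF.comp (continuous_pi fun j => continuous_apply _)) ⟨M, fun y => hM _⟩
      have e : ∀ s, (F (fun j : J => Y s j) : ℂ) * (D s / ((|C| + 1 : ℝ) : ℂ)) =
          (F (fun j : J => Y s j) : ℂ) * D s * ((|C| + 1 : ℝ) : ℂ)⁻¹ := by
        intro s
        rw [div_eq_mul_inv, mul_assoc]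
      simp only [mul_zero, integral_zero]
      simp_rw [e]
      rw [integral_mul_const]
      rw [h1, zero_mul]
    · by_cases hy : y ∈ B
      · rw [indicator_of_mem hy]; simp
      · rw [indicator_of_notMem hy]; simp
  simp only [mul_zero, integral_zero] at key
  rw [← integral_indicator (hY hB)]
  have e : ∀ s, (Y ⁻¹' B).indicator D s = ((B.indicator (fun _ => (1 : ℝ)) (Y s) : ℝ) : ℂ) *
      (D s / ((|C| + 1 : ℝ) : ℂ)) * ((|C| + 1 : ℝ) : ℂ) := by
    intro s
    have hc' : ((|C| + 1 : ℝ) : ℂ) ≠ 0 := Complex.ofReal_ne_zero.2 hc.ne'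
    by_cases hs : Y s ∈ B
    · rw [indicator_of_mem (show s ∈ Y ⁻¹' B from hs), indicator_of_mem hs]
      push_cast at hc' ⊢
      field_simp
    · rw [indicator_of_notMem (show s ∉ Y ⁻¹' B from hs), indicator_of_notMem hs]
      simp
  simp_rw [e]
  rw [integral_mul_const, key, zero_mul]

end

section

variable {S : Type*} [MeasurableSpace S] [StandardBorelSpace S] [Nonempty S] {Q : Measure S}
  [IsProbabilityMeasure Q] {Y : S → ℕ → ℝ}

/-- the regular conditional law given `Y` -/
noncomputable def kap (Q : Measure S) [IsFiniteMeasure Q] (Y : S → ℕ → ℝ) : Kernel (ℕ → ℝ) S :=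
  condDistrib (fun s => s) Y Q

instance (Q : Measure S) [IsFiniteMeasure Q] (Y : S → ℕ → ℝ) : IsMarkovKernel (kap Q Y) := by
  unfold kap
  infer_instance

theorem kap_comp (Q : Measure S) [IsProbabilityMeasure Q] (Y : S → ℕ → ℝ) :
    (Q.map Y) ⊗ₘ kap Q Y = Q.map (fun s => (Y s, s)) :=
  compProd_map_condDistrib aemeasurable_id

/-- almost sure properties pass to the conditional laws -/
theorem ae_kap (hY : Measurable Y) {P : S → Prop} (h : ∀ᵐ s ∂Q, P s) :
    ∀ᵐ p ∂(Q.map Y), ∀ᵐ s ∂(kap Q Y p), P s := by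
  have hm : Measurable (fun s : S => (Y s, s)) := hY.prodMk measurable_id
  have h1 : ∀ᵐ x ∂(Q.map (fun s => (Y s, s))), P x.2 := by
    have hq : Measure.QuasiMeasurePreserving (Prod.snd : (ℕ → ℝ) × S → _)
        (Q.map (fun s => (Y s, s))) Q := by
      refine ⟨measurable_snd, ?_⟩
      rw [Measure.map_map measurable_snd hm]
      have : (Prod.snd ∘ fun s : S => (Y s, s)) = id := rfl
      rw [this, Measure.map_id]
    exact hq.ae h
  rw [← kap_comp] at h1
  exact Measure.ae_ae_of_ae_compProd h1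

theorem ae_kap_eq (hY : Measurable Y) :
    ∀ᵐ p ∂(Q.map Y), ∀ᵐ s ∂(kap Q Y p), Y s = p := by
  have hm : Measurable (fun s : S => (Y s, s)) := hY.prodMk measurable_id
  have h1 : ∀ᵐ x ∂(Q.map (fun s : S => (Y s, s))), Y x.2 = x.1 := by
    rw [ae_map_iff hm.aemeasurable]
    · exact ae_of_all _ fun s => rfl
    · exact measurableSet_eq_fun (hY.comp measurable_snd) measurable_fst
  rw [← kap_comp] at h1
  exact Measure.ae_ae_of_ae_compProd h1

theorem bind_kap (hY : Measurable Y) : (Q.map Y).bind (kap Q Y) = Q := by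
  have hm : Measurable (fun s : S => (Y s, s)) := hY.prodMk measurable_id
  have h := kap_comp Q Y
  have hP : IsProbabilityMeasure (Q.map Y) := Measure.isProbabilityMeasure_map hY.aemeasurable
  have h2 : ((Q.map Y) ⊗ₘ kap Q Y).snd = Q := by
    rw [h, Measure.snd, Measure.map_map measurable_snd hm]
    have : (Prod.snd ∘ fun s : S => (Y s, s)) = id := rfl
    rw [this, Measure.map_id]
  rw [← Measure.snd_compProd, h2]

/-- zero identities pass to the conditional laws -/
theorem kap_zero (hY : Measurable Y) {Z : Type*} [MeasurableSpace Z] [StandardBorelSpace Z]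
    {π : S → Z} (hπ : Measurable π) {D : S → ℂ} (hD : Measurable D) {C : ℝ}
    (hDb : ∀ s, ‖D s‖ ≤ C)
    (h0 : ∀ B : Set (ℕ → ℝ), MeasurableSet B → ∀ T : Set Z, MeasurableSet T →
      ∫ s in Y ⁻¹' B ∩ π ⁻¹' T, D s ∂Q = 0) :
    ∀ᵐ p ∂(Q.map Y), ∀ T : Set Z, MeasurableSet T → ∫ s in π ⁻¹' T, D s ∂(kap Q Y p) = 0 :=
  kernel_zero hY hπ hD hDb h0

/-- the same without the second function -/
theorem kap_zero' (hY : Measurable Y) {D : S → ℂ} (hD : Measurable D) {C : ℝ}
    (hDb : ∀ s, ‖D s‖ ≤ C)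
    (h0 : ∀ B : Set (ℕ → ℝ), MeasurableSet B → ∫ s in Y ⁻¹' B, D s ∂Q = 0) :
    ∀ᵐ p ∂(Q.map Y), ∫ s, D s ∂(kap Q Y p) = 0 := by
  have h := kap_zero (Q := Q) hY (Z := Unit) (π := fun _ => ()) measurable_const hD hDb
    (fun B hB T hT => by
      by_cases hT0 : () ∈ T
      · have : (fun _ : S => ()) ⁻¹' T = univ := by
          ext s
          simp [hT0]
        rw [this, inter_univ]
        exact h0 B hB
      · have : (fun _ : S => ()) ⁻¹' T = ∅ := by
          ext s
          simp [hT0]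
        rw [this, inter_empty]
        simp)
  filter_upwards [h] with p hp
  have := hp univ MeasurableSet.univ
  simpa using this

end

end Vale.Agent.P155.SW924
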