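import Vale.Agent.P155.SW924.K0
import Vale.Agent.P155.SW814.Ad
import Vale.Agent.P155.U.Taylor

/-!
# P155 (SW), block (6a): the Schwinger-Dyson identity given the touched part
-/

namespace Vale.Agent.P155.SW924

open MeasureTheory ProbabilityTheory Set TopologicalSpace Filter Topology Uq UK SWR

variable {Ω : Set ℂ}

/-- the weight of `φ` on the canonical space -/
noncomputable def E1 (Ω : Set ℂ) (φ : ℂ → ℝ) (s : Sp Ω) : ℂ :=
  wt (pr (s 1).2 φ) (greenEnergy (Ω \ (s 1).1) φ)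

theorem norm_wt {a e : ℝ} (he : 0 ≤ e) : ‖wt a e‖ ≤ 1 := by
  rw [wt, Complex.norm_exp, Real.exp_le_one_iff]
  simp only [Complex.sub_re, Complex.mul_re, Complex.I_re, Complex.I_im, Complex.ofReal_re,
    Complex.ofReal_im, Complex.mul_im, Complex.div_ofNat_re]
  linarith

theorem norm_E1 (φ : ℂ → ℝ) (s : Sp Ω) : ‖E1 Ω φ s‖ ≤ 1 :=
  norm_wt (UK.greenEnergy_nonneg _ _)

theorem meas_wt {S : Type*} [MeasurableSpace S] {a e : S → ℝ} (ha : Measurable a)
    (he : Measurable e) : Measurable (fun s => wt (a s) (e s)) := by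
  unfold wt
  apply Complex.measurable_exp.comp
  exact ((Complex.measurable_ofReal.comp ha).const_mul _).sub
    ((Complex.measurable_ofReal.comp he).div_const 2)

theorem meas_lev (k : ℕ) : Measurable (fun s : Sp Ω => s k) := measurable_pi_apply k

theorem meas_E1 (hb : Bornology.IsBounded Ω) {φ : ℂ → ℝ} (hφ : IsTest Ω φ) :
    Measurable (E1 Ω φ) :=
  meas_wt ((U613.measurable_pr hφ).comp (measurable_snd.comp (meas_lev 1)))
    ((U.measurable_green hb hφ).comp (measurable_fst.comp (meas_lev 1)))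

/-- the factor in the Schwinger-Dyson identity -/
noncomputable def cc (φ ψ : ℂ → ℝ) : ℂ :=
  Complex.exp (-(∫ w, ψ w * (φ w + lapC ψ w)) - dir2 ψ / 2)

/-- the coordinates of `KK` -/
noncomputable def yy (Ω K : Set ℂ) (A : NonemptyCompacts ℂ) (i : ℕ) : ℝ :=
  Metric.infDist (denseSeq ℂ i) (KK Ω K A)

theorem meas_yy (ho : IsOpen Ω) (hb : Bornology.IsBounded Ω) {K : Set ℂ} (hK : IsClosed K)
    (hKn : K.Nonempty) : Measurable (yy Ω K) :=
  measurable_pi_lambda _ fun i => SW814.measurable_SWR_KK ho hb hKn hK (denseSeq ℂ i)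

/-- transfer from a realisation with fair signs to the canonical space -/
def Tr (Ω : Set ℂ) (Q : Measure (Sp Ω)) : Prop :=
  ∃ (Θ : Type) (_ : MeasurableSpace Θ) (P : Measure Θ) (G : ℕ → Θ → NonemptyCompacts ℂ)
    (ξ : ℕ → ℕ → Θ → ℝ), T211Q.FairCarpets P Ω G ξ ∧
    ∀ (m : ℕ) (χ : Fin m → ℂ → ℝ), (∀ i, IsTest Ω (χ i)) →
      Measurable (fun x => (G 1 x, fun i => hgt Ω G ξ 1 x (χ i))) ∧
      Measurable (fun s : Sp Ω => ((s 1).1, fun i => pr (s 1).2 (χ i))) ∧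
      P.map (fun x => (G 1 x, fun i => hgt Ω G ξ 1 x (χ i))) =
        Q.map (fun s : Sp Ω => ((s 1).1, fun i => pr (s 1).2 (χ i)))

/-- SDL on the canonical space -/
theorem sdl_canon (hSDL : SDL) (ho : IsOpen Ω) (hb : Bornology.IsBounded Ω) (hne : Ω.Nonempty)
    (hsc : SimplyConnectedSpace Ω) {K : Set ℂ} (hK : IsClosed K) (hKc : IsConnected K)
    (hΩK : Ωᶜ ⊆ K) {Q : Measure (Sp Ω)} (hTr : Tr Ω Q) {N : ℕ} (c : Fin N → ℕ)
    {f : (Fin N → ℝ) → ℝ} (hf : Continuous f) (hfb : ∃ C, ∀ y, |f y| ≤ C) {φ ψ : ℂ → ℝ}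
    (hφ : IsTest Ω φ) (hψ : IsTest Ω ψ)
    (hI : ∃ (I : Finset (Fin N)) (r : Fin N → ℝ), (∀ i ∈ I, 0 < r i) ∧
      (∀ y, f y ≠ 0 → ∀ i ∈ I, r i < y i) ∧
      tsupport ψ ⊆ ⋃ i ∈ I, Metric.ball (denseSeq ℂ (c i)) (r i)) :
    ∫ s, (f (fun i => yy Ω K (s 1).1 (c i)) : ℂ) * E1 Ω φ s ∂Q = cc φ ψ *
      ∫ s, (f (fun i => yy Ω K (s 1).1 (c i)) : ℂ) * E1 Ω (fun w => φ w + lapC ψ w) s ∂Q := by
  obtain ⟨Θ, mΘ, P, G, ξ, hF, hT⟩ := hTr
  have hφψ : IsTest Ω (fun w => φ w + lapC ψ w) := by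
    have h := lapC_test hψ
    exact ⟨hφ.1.add h.1, hφ.2.1.add h.2.1, (closure_mono (Function.support_add _ _)).trans
      (by rw [closure_union]; exact union_subset hφ.2.2 h.2.2)⟩
  have key : ∀ χ, IsTest Ω χ →
      ∫ x, (f (fun i => Metric.infDist (denseSeq ℂ (c i)) (KK Ω K (G 1 x))) : ℂ) *
        wt (hgt Ω G ξ 1 x χ) (greenEnergy (Ω \ (G 1 x : Set ℂ)) χ) ∂P =
      ∫ s, (f (fun i => yy Ω K (s 1).1 (c i)) : ℂ) * E1 Ω χ s ∂Q := by
    intro χ hχ
    obtain ⟨h1, h2, h3⟩ := hT 1 (fun _ => χ) (fun _ => hχ)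
    set Φ : NonemptyCompacts ℂ × (Fin 1 → ℝ) → ℂ := fun p =>
      (f (fun i => yy Ω K p.1 (c i)) : ℂ) * wt (p.2 0) (greenEnergy (Ω \ (p.1 : Set ℂ)) χ) with hΦ
    have hΦm : Measurable Φ := by
      refine (Complex.measurable_ofReal.comp (hf.measurable.comp ?_)).mul
        (meas_wt ((measurable_pi_apply 0).comp measurable_snd)
          ((U.measurable_green hb hχ).comp measurable_fst))
      exact measurable_pi_lambda _ fun i =>
        ((measurable_pi_apply (c i)).comp (meas_yy ho hb hK hKc.nonempty)).comp measurable_fst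
    have e1 : ∫ x, Φ (G 1 x, fun i => hgt Ω G ξ 1 x χ) ∂P =
        ∫ s : Sp Ω, Φ ((s 1).1, fun i => pr (s 1).2 χ) ∂Q := by
      rw [← integral_map h1.aemeasurable hΦm.aestronglyMeasurable,
        ← integral_map h2.aemeasurable hΦm.aestronglyMeasurable, h3]
    exact e1
  have h := (hSDL Ω ho hb hne hsc P G ξ hF K hK hKc hΩK).2 N (fun i => denseSeq ℂ (c i)) f hf hfb
    (fun w => φ w + lapC ψ w) ψ hφψ hψ hI
  have e : (fun w => φ w + lapC ψ w - lapC ψ w) = φ := by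
    funext w
    ring
  rw [e] at h
  rw [← key φ hφ, ← key _ hφψ]
  exact h

end Vale.Agent.P155.SW924
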