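import Vale.Agent.P155.SW924.K1

/-!
# P155 (SW), block (6a): the Schwinger-Dyson identity given the touched part, one pair of tests
-/

namespace Vale.Agent.P155.SW924

open MeasureTheory ProbabilityTheory Set TopologicalSpace Filter Topology Uq UK SWR

variable {Ω : Set ℂ}

theorem test_add {U : Set ℂ} {φ ψ : ℂ → ℝ} (hφ : IsTest U φ) (hψ : IsTest U ψ) :
    IsTest U (fun w => φ w + ψ w) :=
  ⟨hφ.1.add hψ.1, hφ.2.1.add hψ.2.1, (closure_mono (Function.support_add _ _)).trans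
      (by rw [closure_union]; exact union_subset hφ.2.2 hψ.2.2)⟩

theorem test_lap {U : Set ℂ} {φ ψ : ℂ → ℝ} (hφ : IsTest U φ) (hψ : IsTest U ψ) :
    IsTest U (fun w => φ w + lapC ψ w) := test_add hφ (lapC_test hψ)

/-- a finite union of rational balls -/
def cov {n : ℕ} (c : Fin n → ℕ) (r : Fin n → ℚ) : Set ℂ :=
  ⋃ j, Metric.ball (denseSeq ℂ (c j)) (r j)

/-- a cutoff function -/
noncomputable def rho {n : ℕ} (c : Fin n → ℕ) (r : Fin n → ℚ) (y : ℕ → ℝ) : ℝ :=
  ∏ j, min 1 (max 0 (y (c j) - r j))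

theorem measurable_rho {n : ℕ} (c : Fin n → ℕ) (r : Fin n → ℚ) : Measurable (rho c r) := by
  unfold rho
  refine Finset.measurable_prod _ fun j _ => ?_
  exact measurable_const.min (measurable_const.max ((measurable_pi_apply (c j)).sub_const _))

theorem rho_nonneg {n : ℕ} (c : Fin n → ℕ) (r : Fin n → ℚ) (y : ℕ → ℝ) : 0 ≤ rho c r y :=
  Finset.prod_nonneg fun _ _ => le_min zero_le_one (le_max_left _ _)

theorem rho_le {n : ℕ} (c : Fin n → ℕ) (r : Fin n → ℚ) (y : ℕ → ℝ) : rho c r y ≤ 1 :=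
  Finset.prod_le_one (fun _ _ => le_min zero_le_one (le_max_left _ _)) fun _ _ => min_le_left _ _

theorem rho_pos {n : ℕ} {c : Fin n → ℕ} {r : Fin n → ℚ} {y : ℕ → ℝ}
    (h : ∀ j, (r j : ℝ) < y (c j)) : 0 < rho c r y :=
  Finset.prod_pos fun j _ => lt_min zero_lt_one (lt_max_of_lt_right (sub_pos.2 (h j)))

/-- the data of the block -/
structure Dat (Ω K : Set ℂ) (Q : Measure (Sp Ω)) : Prop where
  sdl : SDL
  ho : IsOpen Ω
  hb : Bornology.IsBounded Ω
  hne : Ω.Nonempty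
  hsc : SimplyConnectedSpace Ω
  hK : IsClosed K
  hKc : IsConnected K
  hΩK : Ωᶜ ⊆ K
  hTr : Tr Ω Q
  hQ : Canon Ω Q

variable {K : Set ℂ} {Q : Measure (Sp Ω)}

/-- the coordinates of `KK` on the canonical space -/
noncomputable def YY (Ω K : Set ℂ) (s : Sp Ω) : ℕ → ℝ := yy Ω K (s 1).1

theorem Dat.mY (h : Dat Ω K Q) : Measurable (YY Ω K) :=
  (meas_yy h.ho h.hb h.hK h.hKc.nonempty).comp (measurable_fst.comp (meas_lev 1))

theorem Dat.fdd (h : Dat Ω K Q) {φ ψ : ℂ → ℝ} (hφ : IsTest Ω φ) (hψ : IsTest Ω ψ) {n : ℕ}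
    {c : Fin n → ℕ} {r : Fin n → ℚ} (hr : ∀ j, 0 < r j) (hcov : tsupport ψ ⊆ cov c r) (N : ℕ)
    (F : (Fin N → ℝ) → ℝ) (hF : Continuous F) (hFb : ∃ C, ∀ y, |F y| ≤ C) :
    ∫ s, (F (fun i => YY Ω K s i) : ℂ) * (rho c r (YY Ω K s) *
      (E1 Ω φ s - cc φ ψ * E1 Ω (fun w => φ w + lapC ψ w) s)) ∂Q = 0 := by
  have := h.hQ.prob
  set f : (Fin (N + n) → ℝ) → ℝ := fun y => F (fun i => y (Fin.castAdd n i)) *
    ∏ j, min 1 (max 0 (y (Fin.natAdd N j) - r j)) with hf
  have hfc : Continuous f := by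
    refine (hF.comp (continuous_pi fun i => continuous_apply _)).mul ?_
    refine continuous_finset_prod _ fun j _ => ?_
    exact continuous_const.min (continuous_const.max ((continuous_apply _).sub continuous_const))
  obtain ⟨M, hM⟩ := hFb
  have hfb : ∀ y, |f y| ≤ M := by
    intro y
    have h0 : 0 ≤ ∏ j : Fin n, min 1 (max 0 (y (Fin.natAdd N j) - r j)) :=
      Finset.prod_nonneg fun _ _ => le_min zero_le_one (le_max_left _ _)
    have h1 : ∏ j : Fin n, min 1 (max 0 (y (Fin.natAdd N j) - r j)) ≤ 1 :=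
      Finset.prod_le_one (fun _ _ => le_min zero_le_one (le_max_left _ _)) fun _ _ => min_le_left _ _
    have hM0 : 0 ≤ M := (abs_nonneg _).trans (hM (fun i => y (Fin.castAdd n i)))
    rw [hf, abs_mul, abs_of_nonneg h0]
    exact (mul_le_mul (hM _) h1 h0 hM0).trans_eq (mul_one M)
  have hsdl := sdl_canon h.sdl h.ho h.hb h.hne h.hsc h.hK h.hKc h.hΩK h.hTr
    (Fin.append (fun i : Fin N => (i : ℕ)) c) hfc ⟨M, hfb⟩ hφ hψ (by
      refine ⟨Finset.univ.map (Fin.natAddEmb N), Fin.append (fun _ => 1) (fun j => (r j : ℝ)),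
        ?_, ?_, ?_⟩
      · intro i hi
        obtain ⟨j, -, rfl⟩ := Finset.mem_map.1 hi
        rw [Fin.natAddEmb_apply, Fin.append_right]
        exact_mod_cast hr j
      · intro y hy i hi
        obtain ⟨j, -, rfl⟩ := Finset.mem_map.1 hi
        rw [Fin.natAddEmb_apply, Fin.append_right]
        by_contra hle
        push Not at hle
        apply hy
        rw [hf]
        have : ∏ j : Fin n, min 1 (max 0 (y (Fin.natAdd N j) - r j)) = 0 := by
          refine Finset.prod_eq_zero (Finset.mem_univ j) ?_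
          rw [max_eq_left (by linarith), min_eq_right zero_le_one]
        simp only [this, mul_zero]
      · intro x hx
        obtain ⟨j, hj⟩ := mem_iUnion.1 (hcov hx)
        simp only [mem_iUnion]
        refine ⟨Fin.natAdd N j, Finset.mem_map.2 ⟨j, Finset.mem_univ j, rfl⟩, ?_⟩
        rw [Fin.append_right, Fin.append_right]
        exact hj)
  have ef : ∀ s : Sp Ω, f (fun i => yy Ω K (s 1).1 (Fin.append (fun i : Fin N => (i : ℕ)) c i)) =
      F (fun i => YY Ω K s i) * rho c r (YY Ω K s) := by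
    intro s
    simp only [hf, Fin.append_left, Fin.append_right, rho, YY]
  simp_rw [ef] at hsdl
  have hφψ := test_lap hφ hψ
  have hint : ∀ χ, IsTest Ω χ → Integrable (fun s => ((F (fun i => YY Ω K s i) *
      rho c r (YY Ω K s) : ℝ) : ℂ) * E1 Ω χ s) Q := by
    intro χ hχ
    refine Integrable.of_bound (Measurable.aestronglyMeasurable ?_) M (ae_of_all _ fun s => ?_)
    · refine (Complex.measurable_ofReal.comp (Measurable.mul ?_ ((measurable_rho c r).comp h.mY))).mul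
        (meas_E1 h.hb hχ)
      exact hF.measurable.comp (measurable_pi_lambda _ fun i => (measurable_pi_apply _).comp h.mY)
    · rw [norm_mul, Complex.norm_real, Real.norm_eq_abs, abs_mul, abs_of_nonneg (rho_nonneg _ _ _)]
      have hM0 : 0 ≤ M := (abs_nonneg _).trans (hM (fun i => YY Ω K s i))
      calc |F fun i => YY Ω K s i| * rho c r (YY Ω K s) * ‖E1 Ω χ s‖ ≤ M * 1 * 1 :=
            mul_le_mul (mul_le_mul (hM _) (rho_le _ _ _) (rho_nonneg _ _ _) hM0) (norm_E1 _ _)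
              (norm_nonneg _) (by positivity)
        _ = M := by ring
  have e2 : ∀ s : Sp Ω, (F (fun i => YY Ω K s i) : ℂ) * (rho c r (YY Ω K s) *
      (E1 Ω φ s - cc φ ψ * E1 Ω (fun w => φ w + lapC ψ w) s)) =
      ((F (fun i => YY Ω K s i) * rho c r (YY Ω K s) : ℝ) : ℂ) * E1 Ω φ s -
      cc φ ψ * (((F (fun i => YY Ω K s i) * rho c r (YY Ω K s) : ℝ) : ℂ) *
        E1 Ω (fun w => φ w + lapC ψ w) s) := by
    intro s
    push_cast
    ring
  simp_rw [e2]
  rw [integral_sub (hint φ hφ) ((hint _ hφψ).const_mul _), integral_const_mul, hsdl, sub_self]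

/-- the identity given `KK`, for one pair of test functions -/
theorem Dat.one (h : Dat Ω K Q) [IsProbabilityMeasure Q] {φ ψ : ℂ → ℝ} (hφ : IsTest Ω φ)
    (hψ : IsTest Ω ψ) {n : ℕ} {c : Fin n → ℕ} {r : Fin n → ℚ} (hr : ∀ j, 0 < r j)
    (hcov : tsupport ψ ⊆ cov c r) :
    ∀ᵐ y ∂(Q.map (YY Ω K)), (∀ j, (r j : ℝ) < y (c j)) →
      ∫ s, E1 Ω φ s ∂(kap Q (YY Ω K) y) =
        cc φ ψ * ∫ s, E1 Ω (fun w => φ w + lapC ψ w) s ∂(kap Q (YY Ω K) y) := by
  have hφψ := test_lap hφ hψ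
  have hDm : Measurable (fun s : Sp Ω => (rho c r (YY Ω K s) : ℂ) *
      (E1 Ω φ s - cc φ ψ * E1 Ω (fun w => φ w + lapC ψ w) s)) :=
    (Complex.measurable_ofReal.comp ((measurable_rho c r).comp h.mY)).mul
      ((meas_E1 h.hb hφ).sub ((meas_E1 h.hb hφψ).const_mul _))
  have hDb : ∀ s : Sp Ω, ‖(rho c r (YY Ω K s) : ℂ) *
      (E1 Ω φ s - cc φ ψ * E1 Ω (fun w => φ w + lapC ψ w) s)‖ ≤ 1 + ‖cc φ ψ‖ := by
    intro s
    rw [norm_mul, Complex.norm_real, Real.norm_of_nonneg (rho_nonneg _ _ _)]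
    have h1 : ‖E1 Ω φ s - cc φ ψ * E1 Ω (fun w => φ w + lapC ψ w) s‖ ≤ 1 + ‖cc φ ψ‖ := by
      refine (norm_sub_le _ _).trans (add_le_add (norm_E1 _ _) ?_)
      rw [norm_mul]
      exact mul_le_of_le_one_right (norm_nonneg _) (norm_E1 _ _)
    calc rho c r (YY Ω K s) * _ ≤ 1 * (1 + ‖cc φ ψ‖) :=
          mul_le_mul (rho_le _ _ _) h1 (norm_nonneg _) zero_le_one
      _ = _ := one_mul _
  have h1 := kap_zero' (Q := Q) h.mY hDm hDb fun B hB =>
    zero_of_fdd h.mY hDm hDb (h.fdd hφ hψ hr hcov) hB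
  filter_upwards [h1, ae_kap_eq (Q := Q) h.mY] with y hy1 hy2 hyr
  have e : ∫ s, (rho c r (YY Ω K s) : ℂ) *
      (E1 Ω φ s - cc φ ψ * E1 Ω (fun w => φ w + lapC ψ w) s) ∂(kap Q (YY Ω K) y) =
      (rho c r y : ℂ) * ∫ s, (E1 Ω φ s - cc φ ψ * E1 Ω (fun w => φ w + lapC ψ w) s)
        ∂(kap Q (YY Ω K) y) := by
    rw [← integral_const_mul]
    apply integral_congr_ae
    filter_upwards [hy2] with s hs
    rw [hs]
  rw [e, mul_eq_zero, Complex.ofReal_eq_zero] at hy1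
  have h2 := hy1.resolve_left (rho_pos hyr).ne'
  have hi : ∀ χ, IsTest Ω χ → Integrable (E1 Ω χ) (kap Q (YY Ω K) y) := fun χ hχ =>
    Integrable.of_bound (meas_E1 h.hb hχ).aestronglyMeasurable 1 (ae_of_all _ fun s => norm_E1 _ _)
  rw [integral_sub (hi _ hφ) ((hi _ hφψ).const_mul _), integral_const_mul, sub_eq_zero] at h2
  exact h2

end Vale.Agent.P155.SW924
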