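import Vale.Agent.P155.SW924.K2

/-!
# P155 (SW), block (6a): the Schwinger-Dyson identity given the touched part, all test functions
-/

namespace Vale.Agent.P155.SW924

open MeasureTheory ProbabilityTheory Set TopologicalSpace Filter Topology Uq UK SWR

theorem dense_gen {α M : Type*} [PseudoMetricSpace M] [SecondCountableTopology M] (J : α → M)
    {T : Set α} (hne : T.Nonempty) :
    ∃ e : ℕ → α, (∀ n, e n ∈ T) ∧ ∀ a ∈ T, ∃ u : ℕ → ℕ,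
      Tendsto (fun n => J (e (u n))) atTop (𝓝 (J a)) := by
  set J' : T → M := fun a => J a with hJ'
  have : Nonempty (range J') := by
    obtain ⟨a, ha⟩ := hne
    exact ⟨⟨J' ⟨a, ha⟩, mem_range_self _⟩⟩
  have hx : ∀ n, ∃ a : T, J' a = (denseSeq (range J') n : M) := fun n => (denseSeq (range J') n).2
  choose e he using hx
  refine ⟨fun n => (e n).1, fun n => (e n).2, fun a ha => ?_⟩
  have hd : (⟨J' ⟨a, ha⟩, mem_range_self _⟩ : range J') ∈ closure (range (denseSeq (range J'))) :=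
    denseRange_denseSeq (range J') _
  obtain ⟨x, hx, hlim⟩ := mem_closure_iff_seq_limit.1 hd
  choose u hu using hx
  refine ⟨u, ?_⟩
  have h2 := (continuous_subtype_val.tendsto _).comp hlim
  refine h2.congr fun n => ?_
  simp only [Function.comp_apply]
  rw [← hu]
  exact (he _).symm

variable {Ω : Set ℂ}

open Classical in
/-- the class of a function in `L²(Ω)` -/
noncomputable def tl (Ω : Set ℂ) (φ : ℂ → ℝ) : Fld Ω :=
  if h : MemLp φ 2 (volume.restrict Ω : Measure ℂ) then h.toLp φ else 0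

theorem tl_test {φ : ℂ → ℝ} (hφ : IsTest Ω φ) : tl Ω φ = (U613.memLp_test hφ).toLp φ := by
  unfold tl
  rw [dif_pos (U613.memLp_test hφ)]

theorem pr_tl (f : Fld Ω) {φ : ℂ → ℝ} (hφ : IsTest Ω φ) : pr f φ = inner ℝ (tl Ω φ) f := by
  rw [tl_test hφ]
  exact U613.pr_eq_inner f hφ

theorem tl_add {φ ψ : ℂ → ℝ} (hφ : IsTest Ω φ) (hψ : IsTest Ω ψ) :
    tl Ω (fun w => φ w + ψ w) = tl Ω φ + tl Ω ψ := by
  rw [tl_test hφ, tl_test hψ, tl_test (test_add hφ hψ)]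
  exact MemLp.toLp_add (U613.memLp_test hφ) (U613.memLp_test hψ)

theorem int_tl (ho : IsOpen Ω) {φ ψ : ℂ → ℝ} (hφ : IsTest Ω φ) (hψ : IsTest Ω ψ) :
    ∫ w, ψ w * φ w = inner ℝ (tl Ω φ) (tl Ω ψ) := by
  rw [← pr_tl _ hφ, pr, tl_test hψ,
    ← U613.integral_test_eq ho.measurableSet subset_rfl hφ ψ]
  apply integral_congr_ae
  filter_upwards [(U613.memLp_test hψ).coeFn_toLp] with z hz
  rw [hz]

section

variable {R : (ℂ → ℝ) → HL}

theorem R_add (hR : IsR Ω R) {φ ψ : ℂ → ℝ} (hφ : IsTest Ω φ) (hψ : IsTest Ω ψ) :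
    R (fun w => φ w + ψ w) = R φ + R ψ := by
  have h := hR.lin φ ψ hφ hψ 1 1
  simpa using h

/-- convergence of the weights -/
theorem tendsto_int (hb : Bornology.IsBounded Ω) (hR : IsR Ω R) {κ : Measure (Sp Ω)}
    [IsProbabilityMeasure κ] {φn : ℕ → ℂ → ℝ} {φ : ℂ → ℝ} (hφn : ∀ n, IsTest Ω (φn n))
    (hφ : IsTest Ω φ) (h1 : Tendsto (fun n => R (φn n)) atTop (𝓝 (R φ)))
    (h2 : Tendsto (fun n => tl Ω (φn n)) atTop (𝓝 (tl Ω φ))) :
    Tendsto (fun n => ∫ s, E1 Ω (φn n) s ∂κ) atTop (𝓝 (∫ s, E1 Ω φ s ∂κ)) := by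
  refine tendsto_integral_of_dominated_convergence (fun _ => 1)
    (fun n => (meas_E1 hb (hφn n)).aestronglyMeasurable) (integrable_const _)
    (fun n => ae_of_all _ fun s => norm_E1 _ _) (ae_of_all _ fun s => ?_)
  have t1 : Tendsto (fun n => greenEnergy (Ω \ ((s 1).1 : Set ℂ)) (φn n)) atTop
      (𝓝 (greenEnergy (Ω \ ((s 1).1 : Set ℂ)) φ)) :=
    NT730Y.tendsto_energy hR sdiff_subset hφ hφn h1
  have t2 : Tendsto (fun n => pr (s 1).2 (φn n)) atTop (𝓝 (pr (s 1).2 φ)) := by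
    rw [pr_tl _ hφ]
    simp only [pr_tl _ (hφn _)]
    exact h2.inner tendsto_const_nhds
  unfold E1 wt
  apply (Complex.continuous_exp.tendsto _).comp
  exact (((Complex.continuous_ofReal.tendsto _).comp t2).const_mul _).sub
    (((Complex.continuous_ofReal.tendsto _).comp t1).div_const 2)

/-- convergence of the factors -/
theorem tendsto_cc (ho : IsOpen Ω) {φn ψn : ℕ → ℂ → ℝ} {φ ψ : ℂ → ℝ}
    (hφn : ∀ n, IsTest Ω (φn n)) (hφ : IsTest Ω φ) (hψn : ∀ n, IsTest Ω (ψn n))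
    (hψ : IsTest Ω ψ) (h1 : Tendsto (fun n => tl Ω (φn n)) atTop (𝓝 (tl Ω φ)))
    (h2 : Tendsto (fun n => tl Ω (ψn n)) atTop (𝓝 (tl Ω ψ)))
    (h3 : Tendsto (fun n => tl Ω (lapC (ψn n))) atTop (𝓝 (tl Ω (lapC ψ))))
    (h4 : Tendsto (fun n => dir2 (ψn n)) atTop (𝓝 (dir2 ψ))) :
    Tendsto (fun n => cc (φn n) (ψn n)) atTop (𝓝 (cc φ ψ)) := by
  have e : ∀ {φ ψ : ℂ → ℝ}, IsTest Ω φ → IsTest Ω ψ → ∫ w, ψ w * (φ w + lapC ψ w) =
      inner ℝ (tl Ω φ + tl Ω (lapC ψ)) (tl Ω ψ) := by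
    intro φ ψ hφ hψ
    rw [← tl_add hφ (lapC_test hψ)]
    exact int_tl ho (test_lap hφ hψ) hψ
  unfold cc
  apply (Complex.continuous_exp.tendsto _).comp
  apply Tendsto.sub
  · apply Tendsto.neg
    apply (Complex.continuous_ofReal.tendsto _).comp
    rw [e hφ hψ]
    simp only [e (hφn _) (hψn _)]
    exact (h1.add h3).inner h2
  · exact ((Complex.continuous_ofReal.tendsto _).comp h4).div_const 2

end

variable {K : Set ℂ} {Q : Measure (Sp Ω)}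

/-- **the identity given `KK`, all test functions** -/
theorem Dat.all (h : Dat Ω K Q) [IsProbabilityMeasure Q] :
    ∀ᵐ y ∂(Q.map (YY Ω K)), ∀ φ ψ, IsTest Ω φ → IsTest Ω ψ →
      (∃ (n : ℕ) (c : Fin n → ℕ) (r : Fin n → ℚ), (∀ j, 0 < r j) ∧ (∀ j, (r j : ℝ) < y (c j)) ∧
        tsupport ψ ⊆ cov c r) →
      ∫ s, E1 Ω φ s ∂(kap Q (YY Ω K) y) =
        cc φ ψ * ∫ s, E1 Ω (fun w => φ w + lapC ψ w) s ∂(kap Q (YY Ω K) y) := by
  have : Fact ((2 : ENNReal) ≠ ⊤) := ⟨by norm_num⟩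
  obtain ⟨R, hR⟩ := Xe.exists_isR h.ho h.hb
  have hz : ∀ V : Set ℂ, IsTest V (fun _ => (0 : ℝ)) := fun V => P155.U.isTest_zero V
  obtain ⟨e, he, hd⟩ := dense_gen (fun φ : ℂ → ℝ => (R φ, tl Ω φ)) (T := {φ | IsTest Ω φ})
    ⟨_, hz Ω⟩
  have hex : ∀ β : (Σ n : ℕ, (Fin n → ℕ) × (Fin n → ℚ)), ∃ e : ℕ → ℂ → ℝ,
      (∀ n, e n ∈ {ψ | IsTest Ω ψ ∧ tsupport ψ ⊆ cov β.2.1 β.2.2}) ∧
      ∀ ψ ∈ {ψ | IsTest Ω ψ ∧ tsupport ψ ⊆ cov β.2.1 β.2.2}, ∃ u : ℕ → ℕ,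
      Tendsto (fun n => (R (lapC (e (u n))), tl Ω (e (u n)), tl Ω (lapC (e (u n))),
        dir2 (e (u n)))) atTop (𝓝 (R (lapC ψ), tl Ω ψ, tl Ω (lapC ψ), dir2 ψ)) := by
    intro β
    refine dense_gen (fun ψ : ℂ → ℝ => (R (lapC ψ), tl Ω ψ, tl Ω (lapC ψ), dir2 ψ)) ?_
    exact ⟨_, hz Ω, (hz (cov β.2.1 β.2.2)).2.2⟩
  choose e2 he2 hd2 using hex
  have h1 : ∀ᵐ y ∂(Q.map (YY Ω K)), ∀ (β : (Σ n : ℕ, (Fin n → ℕ) × (Fin n → ℚ))) (a b : ℕ),
      (∀ j, 0 < β.2.2 j) → (∀ j, (β.2.2 j : ℝ) < y (β.2.1 j)) →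
      ∫ s, E1 Ω (e a) s ∂(kap Q (YY Ω K) y) =
        cc (e a) (e2 β b) * ∫ s, E1 Ω (fun w => e a w + lapC (e2 β b) w) s
          ∂(kap Q (YY Ω K) y) := by
    rw [ae_all_iff]
    intro β
    rw [ae_all_iff]
    intro a
    rw [ae_all_iff]
    intro b
    by_cases hβ : ∀ j, 0 < β.2.2 j
    · filter_upwards [h.one (he a) (he2 β b).1 hβ (he2 β b).2] with y hy _ hy2
      exact hy hy2
    · exact ae_of_all _ fun y hβ' => absurd hβ' hβ
  filter_upwards [h1] with y hy φ ψ hφ hψ hc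
  obtain ⟨n, c, r, hr, hry, hcov⟩ := hc
  obtain ⟨u, hu⟩ := hd φ hφ
  obtain ⟨v, hv⟩ := hd2 ⟨n, c, r⟩ ψ ⟨hψ, hcov⟩
  have hu1 := (continuous_fst.tendsto _).comp hu
  have hu2 := (continuous_snd.tendsto _).comp hu
  have hv1 := (continuous_fst.tendsto _).comp hv
  have hv' := (continuous_snd.tendsto _).comp hv
  have hv2 := (continuous_fst.tendsto _).comp hv'
  have hv'' := (continuous_snd.tendsto _).comp hv'
  have hv3 := (continuous_fst.tendsto _).comp hv''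
  have hv4 := (continuous_snd.tendsto _).comp hv''
  have k1 := fun n => he (u n)
  have k2 := fun m => (he2 ⟨n, c, r⟩ (v m)).1
  have t1 : Tendsto (fun m => ∫ s, E1 Ω (e (u m)) s ∂(kap Q (YY Ω K) y)) atTop
      (𝓝 (∫ s, E1 Ω φ s ∂(kap Q (YY Ω K) y))) := tendsto_int h.hb hR k1 hφ hu1 hu2
  have t2 : Tendsto (fun m => ∫ s, E1 Ω (fun w => e (u m) w + lapC (e2 ⟨n, c, r⟩ (v m)) w) s
      ∂(kap Q (YY Ω K) y)) atTop
      (𝓝 (∫ s, E1 Ω (fun w => φ w + lapC ψ w) s ∂(kap Q (YY Ω K) y))) := by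
    refine tendsto_int h.hb hR (fun m => test_lap (k1 m) (k2 m)) (test_lap hφ hψ) ?_ ?_
    · rw [R_add hR hφ (lapC_test hψ)]
      simp only [R_add hR (k1 _) (lapC_test (k2 _))]
      exact hu1.add hv1
    · rw [tl_add hφ (lapC_test hψ)]
      simp only [tl_add (k1 _) (lapC_test (k2 _))]
      exact hu2.add hv3
  have t3 : Tendsto (fun m => cc (e (u m)) (e2 ⟨n, c, r⟩ (v m))) atTop (𝓝 (cc φ ψ)) :=
    tendsto_cc h.ho k1 hφ k2 hψ hu2 hv2 hv3 hv4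
  exact tendsto_nhds_unique t1 ((t3.mul t2).congr fun m => (hy ⟨n, c, r⟩ (u m) (v m) hr hry).symm)

end Vale.Agent.P155.SW924
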