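import Vale.Agent.P155.SW924.K3

/-!
# P155 (SW), block (6a): the touched part as a function of its coordinates
-/

namespace Vale.Agent.P155.SW924

open MeasureTheory ProbabilityTheory Set TopologicalSpace Filter Topology Uq UK SWR

/-- the closed set with the coordinates `y` -/
def bs (y : ℕ → ℝ) : Set ℂ := {w | ∀ i, y i ≤ dist w (denseSeq ℂ i)}

theorem bs_eq {B : Set ℂ} (hB : IsClosed B) (hne : B.Nonempty) :
    bs (fun i => Metric.infDist (denseSeq ℂ i) B) = B := by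
  ext w
  constructor
  · intro hw
    by_contra hwB
    have hpos := (hB.notMem_iff_infDist_pos hne).1 hwB
    obtain ⟨i, hi⟩ := (denseRange_denseSeq ℂ).exists_dist_lt w (half_pos hpos)
    have h1 := hw i
    have h2 := Metric.infDist_le_infDist_add_dist (s := B) (x := w) (y := denseSeq ℂ i)
    linarith
  · intro hw i
    rw [dist_comm]
    exact Metric.infDist_le_dist_of_mem hw

theorem exists_cov {y : ℕ → ℝ} {ψ : ℂ → ℝ} (hψ : IsTest (bs y)ᶜ ψ) :
    ∃ (n : ℕ) (c : Fin n → ℕ) (r : Fin n → ℚ), (∀ j, 0 < r j) ∧ (∀ j, (r j : ℝ) < y (c j)) ∧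
      tsupport ψ ⊆ cov c r := by
  set I : Type := {p : ℕ × ℚ // 0 < p.2 ∧ (p.2 : ℝ) < y p.1} with hI
  have hcov : tsupport ψ ⊆ ⋃ p : I, Metric.ball (denseSeq ℂ p.1.1) (p.1.2 : ℝ) := by
    intro w hw
    have h1 : w ∉ bs y := hψ.2.2 hw
    have h2 : ∃ i, dist w (denseSeq ℂ i) < y i := by
      by_contra hc
      push Not at hc
      exact h1 hc
    obtain ⟨i, hi⟩ := h2
    obtain ⟨q, hq1, hq2⟩ := exists_rat_btwn hi
    refine mem_iUnion.2 ⟨⟨(i, q), ?_, hq2⟩, hq1⟩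
    exact_mod_cast dist_nonneg.trans_lt hq1
  obtain ⟨t, ht⟩ := hψ.2.1.isCompact.elim_finite_subcover
    (fun p : I => Metric.ball (denseSeq ℂ p.1.1) (p.1.2 : ℝ)) (fun p => Metric.isOpen_ball) hcov
  refine ⟨t.card, fun j => (t.equivFin.symm j).1.1.1, fun j => (t.equivFin.symm j).1.1.2,
    fun j => (t.equivFin.symm j).1.2.1, fun j => (t.equivFin.symm j).1.2.2, ?_⟩
  intro w hw
  obtain ⟨p, hp, hwp⟩ := mem_iUnion₂.1 (ht hw)
  refine mem_iUnion.2 ⟨t.equivFin ⟨p, hp⟩, ?_⟩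
  simp only [Equiv.symm_apply_apply]
  exact hwp

end Vale.Agent.P155.SW924
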