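import Vale.Agent.P155.SW924.K4
import Vale.Agent.P155.SW814.Kg
import Vale.Agent.P155.SW814.Ks
import Vale.Agent.P155.SW802.K2
import Vale.Agent.P155.SW877.Lim

/-!
# P155 (SW), block (6a): KSTEP
-/

namespace Vale.Agent.P155.SW924

open MeasureTheory ProbabilityTheory Set TopologicalSpace Filter Topology Uq UK SWR

/-- the second moment given the carpet, on the canonical space -/
theorem second_canon {Ω : Set ℂ} (ho : IsOpen Ω) (hb : Bornology.IsBounded Ω) (hne : Ω.Nonempty)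
    (hsc : SimplyConnectedSpace Ω) {Q : Measure (Sp Ω)} (hQ : Canon Ω Q) {χ : ℂ → ℝ}
    (hχ : IsTest Ω χ) {β : NonemptyCompacts ℂ → ℝ} (hβ : BM β) :
    ∫ s, β (s 1).1 * (pr (s 1).2 χ) ^ 2 ∂Q = ∫ s, β (s 1).1 * SW733.SS Ω χ (s 1).1 ∂Q := by
  obtain ⟨Θ, mΘ, P, G, ξ, hF⟩ := SW802.exists_fair ho hb hne hsc
  obtain ⟨h1, h2, h3⟩ := SW802.transfer ho hb hne hQ hF (m := 1) (fun _ => χ) (fun _ => hχ)
  have m1 : Measurable (fun p : NonemptyCompacts ℂ × (Fin 1 → ℝ) => β p.1 * (p.2 0) ^ 2) :=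
    (hβ.1.comp measurable_fst).mul (((measurable_pi_apply 0).comp measurable_snd).pow_const 2)
  have m2 : Measurable (fun p : NonemptyCompacts ℂ × (Fin 1 → ℝ) => β p.1 * SW733.SS Ω χ p.1) :=
    (hβ.1.comp measurable_fst).mul ((SW733.meas_SS ho hχ).comp measurable_fst)
  have e1 : ∫ x, β (G 1 x) * (hgt Ω G ξ 1 x χ) ^ 2 ∂P = ∫ s, β (s 1).1 * (pr (s 1).2 χ) ^ 2 ∂Q := by
    have h4 := integral_map h1.aemeasurable (m1.aestronglyMeasurable (μ := P.map _))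
    have h5 := integral_map h2.aemeasurable (m1.aestronglyMeasurable (μ := Q.map _))
    exact (h4.symm.trans (by rw [h3])).trans h5
  have e2 : ∫ x, β (G 1 x) * SW733.SS Ω χ (G 1 x) ∂P =
      ∫ s, β (s 1).1 * SW733.SS Ω χ (s 1).1 ∂Q := by
    have h4 := integral_map h1.aemeasurable (m2.aestronglyMeasurable (μ := P.map _))
    have h5 := integral_map h2.aemeasurable (m2.aestronglyMeasurable (μ := Q.map _))
    exact (h4.symm.trans (by rw [h3])).trans h5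
  rw [← e1, ← e2]
  exact SW733.second ho hF hχ β hβ

/-- **block (6a)** -/
theorem kstep_of (hSDL : SDL) (hDJ : DJ) : KSTEP := by
  intro Ω ho hb hne hsc Q hQ K hK hKc hΩK
  have hQp := hQ.prob
  obtain ⟨Θ, mΘ, P, G, ξ, hF⟩ := SW802.exists_fair ho hb hne hsc
  have hTr : Tr Ω Q := ⟨Θ, mΘ, P, G, ξ, hF, fun m χ hχ => SW802.transfer ho hb hne hQ hF χ hχ⟩
  have D : Dat Ω K Q := ⟨hSDL, ho, hb, hne, hsc, hK, hKc, hΩK, hTr, hQ⟩
  have hpath := SW802.path_ae hDJ ho hb hne hsc hQ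
  have hh := meas_yy ho hb hK hKc.nonempty
  refine ⟨ℕ → ℝ, inferInstance, Q.map (YY Ω K), kap Q (YY Ω K), bs,
    Measure.isProbabilityMeasure_map D.mY.aemeasurable, inferInstance, bind_kap D.mY, ?_⟩
  filter_upwards [D.all, ae_kap (Q := Q) D.mY hpath, ae_kap_eq (Q := Q) D.mY,
    SW814.gff_kapY ho hb hQ hh, SW814.second_kap ho hb hQ hh fun χ hχ β hβ =>
      second_canon ho hb hne hsc hQ hχ hβ] with y h1 hp he hg hs
  have hbs : ∀ᵐ s ∂(kap Q (YY Ω K) y), KK Ω K (s 1).1 = bs y ∧ Path Ω s := by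
    filter_upwards [hp, he] with s hs1 hs2
    refine ⟨?_, hs1⟩
    rw [← hs2]
    obtain ⟨x0, hx0⟩ := hKc.nonempty
    exact (bs_eq (geo ho hb hK hKc hΩK hs1).1 ⟨x0, sub_KK _ _ _ hx0⟩).symm
  refine ⟨hbs, ?_, hg⟩
  obtain ⟨s₀, hs₀, hs₀'⟩ := hbs.exists
  have hsub : (bs y)ᶜ ⊆ Ω := by
    intro z hz
    by_contra h
    exact hz (hs₀ ▸ sub_KK Ω K _ (hΩK h))
  exact SW877.limit_y ho hb hK hKc hΩK hbs hs fun φ ψ hφ hψ =>
    h1 φ ψ hφ ⟨hψ.1, hψ.2.1, hψ.2.2.trans hsub⟩ (exists_cov hψ)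

end Vale.Agent.P155.SW924
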