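import Vale.Agent.P155.SW924.K5
import Vale.Agent.P155.SW730.Sdl
import Vale.Agent.P155.SW802.LineP

/-!
# P155 (SW), block (6a): `KSTEP` is a theorem
-/

namespace Vale.Agent.P155.SW924

/-- **KSTEP** -/
theorem kstep : SWR.KSTEP := kstep_of SW730.sdl SW802.dj

end Vale.Agent.P155.SW924
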